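import Vale.Agent.P099.H504.PT.Irr
import Vale.Agent.P099.H184.PT.Rel

set_option linter.all false

open MeasureTheory Set Filter Topology

namespace Vale.Agent.P099T

open Vale.Agent.P099

variable {N : ℕ} {T : PolygonalTable N} {S : Type} {X : Cx S}
variable [MeasurableSpace S] [MeasurableSingletonClass S] [Finite S] [Nonempty S]

/-- relative ergodicity of the billiard in an irrational table -/
theorem Cut.relErg (h : Cut T X) (hT : T.IsIrrational) {Φ : ℝ → ℂ × ℂ → ℂ × ℂ}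
    (hΦ : T.IsBilliardFlow Φ) {Ω : Type} [MeasurableSpace Ω] {m : Measure Ω}
    [IsProbabilityMeasure m] {Ξ : ℝ → Ω → Ω} (hΞ : PFlow m Ξ)
    {A : Set ((ℂ × ℂ) × Ω)} (hAm : MeasurableSet A)
    (hA : ∀ t, (T.mu.prod m) (symmDiff ((fun z => (Φ t z.1, Ξ t z.2)) ⁻¹' A) A) = 0) :
    ∃ B : Set Ω, MeasurableSet B ∧ (∀ t, m (symmDiff (Ξ t ⁻¹' B) B) = 0) ∧
      (T.mu.prod m) (symmDiff A (univ ×ˢ B)) = 0 := by
  have : Fintype S := Fintype.ofFinite S
  obtain ⟨Ψ, Θ, hΨ, hb, hΘ, hbΘ, hpr, huniq⟩ := h.exists_flow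
  refine h.relative hpr (huniq Φ hΦ) ?_ hAm hA
  intro A' hA'm hA'
  refine Cx.sets_of_funs (X := X) hb ?_ hA'm hA'
  intro H h1 h2 h3
  obtain ⟨f, f1, -, f3, f4⟩ := X.relative hΞ (h.irr hT) h.conn (H := H) h1
    (fun s t ht => h2 s t ht) (fun s t ht i => h3 s t ht i)
  exact ⟨f, f1, f3, f4⟩

/-- ergodicity -/
theorem Cut.ergodic (h : Cut T X) (hT : T.IsIrrational) {Φ : ℝ → ℂ × ℂ → ℂ × ℂ}
    (hΦ : T.IsBilliardFlow Φ) : FlowErgodic T.mu Φ := by
  intro A hA hinv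
  have hΞ : PFlow (Measure.dirac () : Measure Unit) (fun (_ : ℝ) (q : Unit) => q) :=
    ⟨by fun_prop, fun t => MeasurePreserving.id _, fun s t => Filter.Eventually.of_forall fun _ => rfl,
      Filter.Eventually.of_forall fun _ => rfl⟩
  obtain ⟨B, hB, -, h2⟩ := h.relErg hT hΦ hΞ (A := Prod.fst ⁻¹' A) (measurable_fst hA) (by
    intro t
    have h1 := (Measure.quasiMeasurePreserving_fst (μ := T.mu)
      (ν := (Measure.dirac () : Measure Unit))).preimage_null (hinv t)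
    exact h1)
  have h3 : ∀ᵐ z ∂(T.mu.prod (Measure.dirac () : Measure Unit)),
      (z ∈ (Prod.fst ⁻¹' A : Set ((ℂ × ℂ) × Unit)) ↔ z ∈ (univ ×ˢ B : Set ((ℂ × ℂ) × Unit))) :=
    Cx.ae_iff_of_null h2
  have h4 : ∀ᵐ p ∂T.mu, (p ∈ A ↔ () ∈ B) := by
    have h5 := Measure.ae_ae_of_ae_prod h3
    filter_upwards [h5] with p hp
    simpa using hp
  by_cases hB' : () ∈ B
  · right
    have h5 : ∀ᵐ p ∂T.mu, p ∈ A := by
      filter_upwards [h4] with p hp
      exact hp.2 hB'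
    exact (prob_compl_eq_zero_iff hA).mp (ae_iff.mp h5)
  · left
    have h5 : ∀ᵐ p ∂T.mu, p ∉ A := by
      filter_upwards [h4] with p hp
      exact fun hpA => hB' (hp.1 hpA)
    exact measure_eq_zero_iff_ae_notMem.2 h5

/-- weak mixing -/
theorem Cut.weakMixing (h : Cut T X) (hT : T.IsIrrational) {Φ : ℝ → ℂ × ℂ → ℂ × ℂ}
    (hΦ : T.IsBilliardFlow Φ) : FlowWeakMixing T.mu Φ := by
  intro A hA hinv
  obtain ⟨Ψ, Θ, hΨ, hb, hΘ, hbΘ, hpr, huniq⟩ := h.exists_flow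
  obtain ⟨B, hB, h1, h2⟩ := h.relErg hT hΦ hΘ hA (by
    intro t
    apply Cx.null_of_ae_iff
    have h3 := Cx.ae_iff_of_null (hinv t)
    have h4 : ∀ᵐ z ∂(T.mu.prod T.mu), Φ t z.2 = Θ t z.2 :=
      Measure.quasiMeasurePreserving_snd.ae (huniq Φ hΦ t)
    filter_upwards [h3, h4] with z g1 g2
    rw [← g1, mem_preimage, mem_preimage, g2])
  have h5 : T.mu B = 0 ∨ T.mu B = 1 := h.ergodic hT hbΘ B hB h1
  have h6 : (T.mu.prod T.mu) A = (T.mu.prod T.mu) (univ ×ˢ B) := by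
    apply measure_congr
    have := Cx.ae_iff_of_null h2
    filter_upwards [this] with z hz
    exact propext hz
  rw [h6, Measure.prod_prod, measure_univ, one_mul]
  exact h5

end Vale.Agent.P099T
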