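import Vale.Agent.P099.H504.PT.Split

set_option linter.all false

open MeasureTheory Set Filter Topology

namespace Vale.Agent.P099T

open Vale.Agent.P099

/-- the side `a b`, seen from `v` -/
def Fc (Q : Set ℂ) (G : Set (Finset ℂ)) (a b v : ℂ) : Prop :=
  Disjoint (segment ℝ a b) Q ∨
    ∃ w, ({a, b, w} : Finset ℂ) ∈ G ∧ cr (b - a) (v - a) * cr (b - a) (w - a) < 0

lemma Fc.symm {Q : Set ℂ} {G : Set (Finset ℂ)} {a b v : ℂ} (h : Fc Q G a b v) :
    Fc Q G b a v := by
  rcases h with h | ⟨w, h1, h2⟩
  · left
    rw [segment_symm]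
    exact h
  · right
    refine ⟨w, ?_, ?_⟩
    · rw [Finset.insert_comm]
      exact h1
    · have e : ∀ z : ℂ, cr (a - b) (z - b) = - cr (b - a) (z - a) := by
        intro z
        simp only [cr, Complex.sub_re, Complex.sub_im]
        ring
      rw [e, e, neg_mul_neg]
      exact h2

lemma fc_perm {Q : Set ℂ} {G : Set (Finset ℂ)} {a b c x y v : ℂ}
    (h : ({x, y, v} : Finset ℂ) = {a, b, c}) (hne : x ≠ y ∧ x ≠ v ∧ y ≠ v)
    (h1 : Fc Q G a b c) (h2 : Fc Q G b c a) (h3 : Fc Q G c a b) : Fc Q G x y v := by
  have hx : x ∈ ({a, b, c} : Finset ℂ) := by rw [← h]; simp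
  have hy : y ∈ ({a, b, c} : Finset ℂ) := by rw [← h]; simp
  have hv : v ∈ ({a, b, c} : Finset ℂ) := by rw [← h]; simp
  obtain ⟨n1, n2, n3⟩ := hne
  simp only [Finset.mem_insert, Finset.mem_singleton] at hx hy hv
  clear h
  rcases hx with rfl | rfl | rfl <;> rcases hy with rfl | rfl | rfl <;>
    rcases hv with rfl | rfl | rfl <;>
    first
      | exact absurd rfl n1
      | exact absurd rfl n2
      | exact absurd rfl n3
      | exact h1
      | exact h2
      | exact h3
      | exact h1.symm
      | exact h2.symm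
      | exact h3.symm

/-- the sides of one half of a cut triangle -/
lemma half_face {Q : Set ℂ} {F : Set (Finset ℂ)} (hF : Trg Q F) {x y v p : ℂ}
    (hm : ({x, y, v} : Finset ℂ) ∈ F) (hv : cr (y - x) (v - x) ≠ 0)
    (hp : p ∈ openSegment ℝ x y) :
    Fc Q (spl F x y p) p y v ∧ Fc Q (spl F x y p) y v p ∧ Fc Q (spl F x y p) v p y := by
  obtain ⟨n1, n2, n3⟩ := nd_ne hv
  have hp' := hp
  obtain ⟨s, t, hs, ht, hst, rfl⟩ := hp
  have hs' : t = 1 - s := by linarith
  refine ⟨?_, ?_, ?_⟩
  · rcases hF.face x y v hm hv with h | ⟨w, h1, h2⟩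
    · left
      refine h.mono_left ?_
      exact (convex_segment x y).segment_subset (openSegment_subset_segment ℝ _ _ hp')
        (right_mem_segment ℝ x y)
    · right
      refine ⟨w, (mem_spl hF.nondeg n1).2 (Or.inr ⟨w, h1, ?_, Or.inl rfl⟩), ?_⟩
      · intro h0
        rw [h0, mul_zero] at h2
        exact lt_irrefl _ h2
      · have e : ∀ z : ℂ, cr (y - (s • x + t • y)) (z - (s • x + t • y)) =
            s * cr (y - x) (z - x) := by
          intro z
          subst hs'
          simp only [cr, Complex.real_smul, Complex.re_ofReal_mul, Complex.im_ofReal_mul,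
            Complex.add_re, Complex.add_im, Complex.sub_re, Complex.sub_im]
          ring
        rw [e, e]
        have : s * cr (y - x) (v - x) * (s * cr (y - x) (w - x)) =
            (s * s) * (cr (y - x) (v - x) * cr (y - x) (w - x)) := by ring
        rw [this]
        exact mul_neg_of_pos_of_neg (mul_pos hs hs) h2
  · have hm' : ({y, v, x} : Finset ℂ) ∈ F := by
      have : ({y, v, x} : Finset ℂ) = {x, y, v} := by
        ext z
        simp only [Finset.mem_insert, Finset.mem_singleton]
        tauto
      rw [this]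
      exact hm
    have e1 : cr (v - y) (x - y) = cr (y - x) (v - x) := by
      simp only [cr, Complex.sub_re, Complex.sub_im]
      ring
    rcases hF.face y v x hm' (by rw [e1]; exact hv) with h | ⟨w, h1, h2⟩
    · exact Or.inl h
    · right
      refine ⟨w, (mem_spl hF.nondeg n1).2 (Or.inl ⟨h1, ?_⟩), ?_⟩
      · rintro ⟨hx, -⟩
        simp only [Finset.mem_insert, Finset.mem_singleton] at hx
        rcases hx with h | h | h
        · exact n1 h
        · exact n2 h
        · rw [← h] at h2
          nlinarith [mul_self_nonneg (cr (v - y) (x - y))]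
      · have e : cr (v - y) (s • x + t • y - y) = s * cr (v - y) (x - y) := by
          subst hs'
          simp only [cr, Complex.real_smul, Complex.re_ofReal_mul, Complex.im_ofReal_mul,
            Complex.add_re, Complex.add_im, Complex.sub_re, Complex.sub_im]
          ring
        rw [e, mul_assoc]
        exact mul_neg_of_pos_of_neg hs h2
  · right
    refine ⟨x, (mem_spl hF.nondeg n1).2 (Or.inr ⟨v, hm, hv, Or.inr ?_⟩), ?_⟩
    · ext z
      simp only [Finset.mem_insert, Finset.mem_singleton]
      tauto
    · have e1 : cr (s • x + t • y - v) (y - v) = s * cr (x - v) (y - v) := by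
        subst hs'
        simp only [cr, Complex.real_smul, Complex.re_ofReal_mul, Complex.im_ofReal_mul,
          Complex.add_re, Complex.add_im, Complex.sub_re, Complex.sub_im]
        ring
      have e2 : cr (s • x + t • y - v) (x - v) = - (t * cr (x - v) (y - v)) := by
        subst hs'
        simp only [cr, Complex.real_smul, Complex.re_ofReal_mul, Complex.im_ofReal_mul,
          Complex.add_re, Complex.add_im, Complex.sub_re, Complex.sub_im]
        ring
      have e3 : cr (x - v) (y - v) ≠ 0 := by
        have : cr (x - v) (y - v) = cr (y - x) (v - x) := by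
          simp only [cr, Complex.sub_re, Complex.sub_im]
          ring
        rw [this]
        exact hv
      rw [e1, e2]
      have e4 : 0 < cr (x - v) (y - v) * cr (x - v) (y - v) := mul_self_pos.2 e3
      have e5 : 0 < s * t := mul_pos hs ht
      have := mul_pos e5 e4
      nlinarith

lemma rot3 (a b c : ℂ) : ({a, b, c} : Finset ℂ) = {b, c, a} := by
  ext z
  simp only [Finset.mem_insert, Finset.mem_singleton]
  tauto

lemma swp3 (a b c : ℂ) : ({a, b, c} : Finset ℂ) = {b, a, c} := by
  ext z
  simp only [Finset.mem_insert, Finset.mem_singleton]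
  tauto

lemma swp3' (a b c : ℂ) : ({a, b, c} : Finset ℂ) = {a, c, b} := by
  ext z
  simp only [Finset.mem_insert, Finset.mem_singleton]
  tauto

/-- the neighbour of a kept triangle is cut -/
lemma flip_face {Q : Set ℂ} {F : Set (Finset ℂ)} (hF : Trg Q F) {x y p a b w : ℂ} (hxy : x ≠ y)
    (hp : p ∈ openSegment ℝ x y) (hm : ({a, b, w} : Finset ℂ) ∈ F) (hw : cr (b - a) (w - a) ≠ 0)
    (hcase : (x = w ∧ (y = a ∨ y = b)) ∨ (y = w ∧ (x = a ∨ x = b))) :
    ({a, b, p} : Finset ℂ) ∈ spl F x y p ∧
      ∃ s : ℝ, 0 < s ∧ cr (b - a) (p - a) = s * cr (b - a) (w - a) := by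
  obtain ⟨s, t, hs, ht, -, he⟩ := cr_between (c := a) (d := b - a) hp
  have z1 : cr (b - a) (a - a) = 0 := by simp [cr]
  have z2 : cr (b - a) (b - a) = 0 := by simp only [cr]; ring
  rcases hcase with ⟨rfl, rfl | rfl⟩ | ⟨rfl, rfl | rfl⟩
  · refine ⟨(mem_spl hF.nondeg hxy).2 (Or.inr ⟨b, ?_, ?_, Or.inl ?_⟩), s, hs, ?_⟩
    · rw [rot3 x y b]; exact hm
    · have : cr (y - x) (b - x) = cr (b - y) (x - y) := by
        simp only [cr, Complex.sub_re, Complex.sub_im]
        ring
      rw [this]; exact hw
    · exact (rot3 p y b).symm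
    · rw [he, z1]; ring
  · refine ⟨(mem_spl hF.nondeg hxy).2 (Or.inr ⟨a, ?_, ?_, Or.inl ?_⟩), s, hs, ?_⟩
    · rw [rot3 x y a, swp3 y a x]; exact hm
    · have : cr (y - x) (a - x) = - cr (y - a) (x - a) := by
        simp only [cr, Complex.sub_re, Complex.sub_im]
        ring
      rw [this]; exact neg_ne_zero.2 hw
    · rw [rot3 p y a, swp3 y a p]
    · rw [he, z2]; ring
  · refine ⟨(mem_spl hF.nondeg hxy).2 (Or.inr ⟨b, ?_, ?_, Or.inr ?_⟩), t, ht, ?_⟩
    · rw [swp3' x y b]; exact hm
    · have : cr (y - x) (b - x) = - cr (b - x) (y - x) := by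
        simp only [cr, Complex.sub_re, Complex.sub_im]
        ring
      rw [this]; exact neg_ne_zero.2 hw
    · exact swp3' x b p
    · rw [he, z1]; ring
  · refine ⟨(mem_spl hF.nondeg hxy).2 (Or.inr ⟨a, ?_, ?_, Or.inr ?_⟩), t, ht, ?_⟩
    · rw [← rot3 a x y]; exact hm
    · have : cr (y - x) (a - x) = cr (x - a) (y - a) := by
        simp only [cr, Complex.sub_re, Complex.sub_im]
        ring
      rw [this]; exact hw
    · exact rot3 a x p
    · rw [he, z2]; ring

/-- the field `face` for the cut family -/
lemma face_spl {Q : Set ℂ} {F : Set (Finset ℂ)} (hF : Trg Q F) {x y p : ℂ} (hxy : x ≠ y)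
    (hp : p ∈ openSegment ℝ x y) :
    ∀ x' y' v, ({x', y', v} : Finset ℂ) ∈ spl F x y p → cr (y' - x') (v - x') ≠ 0 →
      Disjoint (segment ℝ x' y') Q ∨
        ∃ w, ({x', y', w} : Finset ℂ) ∈ spl F x y p ∧
          cr (y' - x') (v - x') * cr (y' - x') (w - x') < 0 := by
  intro x' y' v' hm hv
  have hne := nd_ne hv
  show Fc Q (spl F x y p) x' y' v'
  rcases (mem_spl hF.nondeg hxy).1 hm with ⟨h1, h2⟩ | ⟨v, h1, h2, h3 | h3⟩
  · rcases hF.face x' y' v' h1 hv with h | ⟨w, h3, h4⟩
    · exact Or.inl h
    · right
      by_cases h5 : x ∈ ({x', y', w} : Finset ℂ) ∧ y ∈ ({x', y', w} : Finset ℂ)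
      · have hw0 : cr (y' - x') (w - x') ≠ 0 := by
          intro h0
          rw [h0, mul_zero] at h4
          exact lt_irrefl _ h4
        obtain ⟨hx, hy⟩ := h5
        simp only [Finset.mem_insert, Finset.mem_singleton] at hx hy h2
        have hcase : (x = w ∧ (y = x' ∨ y = y')) ∨ (y = w ∧ (x = x' ∨ x = y')) := by
          by_cases k1 : x = w
          · left
            refine ⟨k1, ?_⟩
            rcases hy with h | h | h
            · exact Or.inl h
            · exact Or.inr h
            · exact absurd (k1.trans h.symm) hxy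
          · right
            have k2 : x = x' ∨ x = y' := by
              rcases hx with h | h | h
              · exact Or.inl h
              · exact Or.inr h
              · exact absurd h k1
            refine ⟨?_, k2⟩
            by_contra k3
            apply h2
            constructor
            · rcases k2 with h | h
              · exact Or.inl h
              · exact Or.inr (Or.inl h)
            · rcases hy with h | h | h
              · exact Or.inl h
              · exact Or.inr (Or.inl h)
              · exact absurd h k3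
        obtain ⟨g1, s, hs, g2⟩ := flip_face hF hxy hp h3 hw0 hcase
        refine ⟨p, g1, ?_⟩
        rw [g2]
        have : cr (y' - x') (v' - x') * (s * cr (y' - x') (w - x')) =
            s * (cr (y' - x') (v' - x') * cr (y' - x') (w - x')) := by ring
        rw [this]
        exact mul_neg_of_pos_of_neg hs h4
      · exact ⟨w, (mem_spl hF.nondeg hxy).2 (Or.inl ⟨h3, h5⟩), h4⟩
  · obtain ⟨g1, g2, g3⟩ := half_face hF h1 h2 hp
    exact fc_perm h3 hne g1 g2 g3
  · have h1' : ({y, x, v} : Finset ℂ) ∈ F := by
      rw [Finset.insert_comm]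
      exact h1
    have h2' : cr (x - y) (v - y) ≠ 0 := by
      have : cr (x - y) (v - y) = - cr (y - x) (v - x) := by
        simp only [cr, Complex.sub_re, Complex.sub_im]
        ring
      rw [this]
      exact neg_ne_zero.2 h2
    have hp' : p ∈ openSegment ℝ y x := by
      rw [openSegment_symm]
      exact hp
    obtain ⟨g1, g2, g3⟩ := half_face hF h1' h2' hp'
    rw [spl_comm] at g1 g2 g3
    refine fc_perm (a := p) (b := x) (c := v) ?_ hne g1 g2 g3
    rw [h3, Finset.insert_comm]

end Vale.Agent.P099T
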