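import Vale.Agent.P099.H504.Cx.C12
import Vale.Agent.P099.H184.PT.Cut

set_option linter.all false

open MeasureTheory Set Filter Topology

namespace Vale.Agent.P099T

open Vale.Agent.P099

/-- explicit formula for the reflection -/
lemma reflection_eq {d : ℂ} (hd : d ≠ 0) (u : ℂ) :
    (Submodule.span ℝ {d}).reflection u = d / (starRingEnd ℂ) d * (starRingEnd ℂ) u := by
  have hc : (starRingEnd ℂ) d ≠ 0 := by simpa only [ne_eq, map_eq_zero] using hd
  rw [Submodule.reflection_singleton_apply, div_mul_eq_mul_div, eq_div_iff hc]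
  have hn : ((‖d‖ : ℝ) : ℂ) ^ 2 = d * (starRingEnd ℂ) d := by
    rw [Complex.mul_conj, Complex.normSq_eq_norm_sq]
    push_cast
    rfl
  have hn0 : ((‖d‖ : ℝ) : ℂ) ^ 2 ≠ 0 := by
    rw [hn]
    exact mul_ne_zero hd hc
  have hin : ((inner ℝ d u : ℝ) : ℂ) =
      ((starRingEnd ℂ) d * u + d * (starRingEnd ℂ) u) / 2 := by
    rw [Complex.inner]
    rw [Complex.re_eq_add_conj]
    simp only [map_mul, RingHomCompTriple.comp_apply, RingHom.id_apply, mul_comm]
  rw [two_smul, Complex.real_smul, Complex.ofReal_div, hin]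
  simp only [RCLike.ofReal_real_eq_id, id_eq, Complex.ofReal_pow]
  rw [hn]
  field_simp
  ring

lemma rot_pow_ne {a b : ℂ} (ha : a ≠ 0) (hb : b ≠ 0)
    (h : Irrational (InnerProductGeometry.angle a b / Real.pi)) {n : ℤ} (hn : n ≠ 0) :
    ((a / b) / (starRingEnd ℂ) (a / b)) ^ n ≠ 1 := by
  intro hcon
  apply h
  have hz0 : a / b ≠ 0 := div_ne_zero ha hb
  have hang : InnerProductGeometry.angle a b = |(a / b).arg| := Complex.angle_eq_abs_arg ha hb
  set θ := (a / b).arg with hθ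
  have hrot : (a / b) / (starRingEnd ℂ) (a / b) = Complex.exp (2 * θ * Complex.I) := by
    have h2 : a / b = ‖a / b‖ * Complex.exp (θ * Complex.I) :=
      (Complex.norm_mul_exp_arg_mul_I (a / b)).symm
    have h3 : (starRingEnd ℂ) (a / b) = ‖a / b‖ * Complex.exp (-(θ * Complex.I)) := by
      conv_lhs => rw [h2]
      rw [map_mul, Complex.conj_ofReal, ← Complex.exp_conj]
      simp only [Complex.norm_div, Complex.ofReal_div, map_mul, Complex.conj_ofReal, Complex.conj_I, mul_neg]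
    have h4 : ((‖a / b‖ : ℝ) : ℂ) ≠ 0 := by
      rw [Ne, Complex.ofReal_eq_zero, norm_eq_zero]
      exact hz0
    have h5 : (a / b) / (starRingEnd ℂ) (a / b) =
        (‖a / b‖ * Complex.exp (θ * Complex.I)) / (‖a / b‖ * Complex.exp (-(θ * Complex.I))) :=
      congrArg₂ (· / ·) h2 h3
    rw [h5, mul_div_mul_left _ _ h4, ← Complex.exp_sub]
    congr 1
    ring
  rw [hrot, ← Complex.exp_int_mul, Complex.exp_eq_one_iff] at hcon
  obtain ⟨m, hm⟩ := hcon
  have hI : (n : ℂ) * θ = m * Real.pi := by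
    have h5 : (2 * Complex.I) * ((n : ℂ) * θ) = (2 * Complex.I) * (m * Real.pi) := by
      linear_combination hm
    exact mul_left_cancel₀ (mul_ne_zero two_ne_zero Complex.I_ne_zero) h5
  have hR : (n : ℝ) * θ = m * Real.pi := by exact_mod_cast hI
  have hn' : (n : ℝ) ≠ 0 := by exact_mod_cast hn
  have hfin : θ / Real.pi = ((m : ℚ) / n : ℚ) := by
    push_cast
    rw [div_eq_div_iff Real.pi_ne_zero hn']
    linarith only [hR]
  rw [hang]
  refine ⟨|(m : ℚ) / n|, ?_⟩
  have : |θ| / Real.pi = |θ / Real.pi| := by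
    rw [abs_div, abs_of_pos Real.pi_pos]
  rw [this, hfin]
  push_cast
  rfl

lemma norm_rot {a : ℂ} (ha : a ≠ 0) : ‖a / (starRingEnd ℂ) a‖ = 1 := by
  rw [norm_div, RCLike.norm_conj, div_self (norm_ne_zero_iff.2 ha)]

/-- parallel vectors have the same reflection -/
lemma ratio_of_cr {a b : ℂ} (ha : a ≠ 0) (hb : b ≠ 0) (h : cr a b = 0) :
    (a / b) / (starRingEnd ℂ) (a / b) = 1 := by
  have hca : (starRingEnd ℂ) a ≠ 0 := by simpa only [ne_eq, map_eq_zero] using ha
  have hcb : (starRingEnd ℂ) b ≠ 0 := by simpa only [ne_eq, map_eq_zero] using hb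
  rw [map_div₀, div_div_div_eq, div_eq_one_iff_eq (mul_ne_zero hb hca)]
  apply Complex.ext
  · simp only [Complex.mul_re, Complex.conj_re, Complex.conj_im]
    ring
  · simp only [Complex.mul_im, Complex.conj_re, Complex.conj_im]
    unfold cr at h
    linarith

namespace PolygonalTable

variable {N : ℕ} (T : PolygonalTable N)

lemma dir_ne (j : Fin N) : T.b j - T.a j ≠ 0 := sub_ne_zero.2 (T.ne j).symm

lemma refl_eq (j : Fin N) (u : ℂ) : T.refl j u =
    (T.b j - T.a j) / (starRingEnd ℂ) (T.b j - T.a j) * (starRingEnd ℂ) u :=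
  reflection_eq (T.dir_ne j) u

/-- there is no point which is on the lines of all the walls -/
theorem exists_off (O : ℂ) : ∃ j, cr (T.b j - T.a j) (O - T.a j) ≠ 0 := by
  by_contra hcon
  push Not at hcon
  -- a point of the table outside these lines
  obtain ⟨x, hxQ, hxO, hx⟩ : ∃ x ∈ T.Q, x ≠ O ∧
      ∀ j, cr (T.b j - T.a j) (x - T.a j) ≠ 0 := by
    have h1 : ∀ᵐ x ∂(volume : Measure ℂ), x ≠ O ∧
        ∀ j, cr (T.b j - T.a j) (x - T.a j) ≠ 0 := by
      refine (measure_eq_zero_iff_ae_notMem.1 (measure_singleton O) :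
        ∀ᵐ x ∂(volume : Measure ℂ), x ∉ ({O} : Set ℂ)).and (ae_all_iff.2 fun j => ?_)
      have h2 : volume {y : ℂ | cr (T.a j - y) (T.b j - T.a j) = 0} = 0 :=
        volume_line (T.a j) (T.b j - T.a j) (T.dir_ne j)
      rw [ae_iff]
      convert h2 using 2
      ext y
      simp only [mem_ofPred_eq, not_not]
      have : cr (T.a j - y) (T.b j - T.a j) = cr (T.b j - T.a j) (y - T.a j) := by
        simp only [cr, Complex.sub_re, Complex.sub_im]
        ring
      rw [this]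
    have h2 : (volume : Measure ℂ) T.Q ≠ 0 :=
      (T.isOpen.measure_pos volume T.isConnected.nonempty).ne'
    by_contra hno
    push Not at hno
    apply h2
    refine measure_mono_null (t := {x | ¬ (x ≠ O ∧ ∀ j, cr (T.b j - T.a j) (x - T.a j) ≠ 0)})
      ?_ (ae_iff.1 h1)
    intro x hxQ hx
    obtain ⟨j, hj⟩ := hno x hxQ hx.1
    exact hx.2 j hj
  -- the ray from `x` away from `O`
  set γ : ℝ → ℂ := fun t => x + t • (x - O) with hγ
  have hγc : Continuous γ := by fun_prop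
  have hpre : IsPreconnected (γ '' Ici 0) := isPreconnected_Ici.image _ hγc.continuousOn
  have hsub : γ '' Ici 0 ⊆ T.Q := by
    refine hpre.subset_left_of_subset_union (v := (closure T.Q)ᶜ) T.isOpen
      isClosed_closure.isOpen_compl
      (disjoint_compl_right.mono_left subset_closure) ?_
      ⟨x, ⟨0, self_mem_Ici, by simp [hγ]⟩, hxQ⟩
    rintro _ ⟨t, ht, rfl⟩
    by_contra hn
    rw [mem_union, not_or, mem_compl_iff, not_not] at hn
    have h1 : γ t ∈ frontier T.Q := by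
      rw [T.isOpen.frontier_eq]
      exact ⟨hn.2, hn.1⟩
    rw [T.frontier_eq] at h1
    obtain ⟨j, hj⟩ := mem_iUnion.1 h1
    apply hx j
    obtain ⟨p, q, hp, hq, hpq, he⟩ := hj
    have ht0 : (0:ℝ) ≤ t := ht
    have e1 : γ t - T.a j = q • (T.b j - T.a j) := by
      rw [← he, show p = 1 - q by linarith]
      simp only [Complex.real_smul]
      push_cast
      ring
    have e2 : cr (T.b j - T.a j) (γ t - T.a j) = 0 := by
      rw [e1]
      simp only [cr, Complex.real_smul, Complex.re_ofReal_mul, Complex.im_ofReal_mul]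
      ring
    have e3 : cr (T.b j - T.a j) (γ t - T.a j) = (1 + t) * cr (T.b j - T.a j) (x - T.a j) -
        t * cr (T.b j - T.a j) (O - T.a j) := by
      simp only [hγ, cr, Complex.real_smul, Complex.re_ofReal_mul, Complex.im_ofReal_mul,
        Complex.add_re, Complex.add_im, Complex.sub_re, Complex.sub_im]
      ring
    rw [e2, hcon j, mul_zero, sub_zero] at e3
    rcases mul_eq_zero.1 e3.symm with h | h
    · linarith
    · exact h
  obtain ⟨R, hR⟩ := T.isBounded.exists_norm_le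
  have hd : 0 < ‖x - O‖ := norm_pos_iff.2 (sub_ne_zero.2 hxO)
  have hR0 : 0 ≤ R := (norm_nonneg _).trans (hR x hxQ)
  have h1 := hR (γ ((‖x‖ + R + 1) / ‖x - O‖)) (hsub ⟨_, by
    show (0:ℝ) ≤ _
    positivity, rfl⟩)
  have h2 : ‖x + ((‖x‖ + R + 1) / ‖x - O‖) • (x - O)‖ ≥
      ‖((‖x‖ + R + 1) / ‖x - O‖) • (x - O)‖ - ‖x‖ := by
    have := norm_sub_norm_le (((‖x‖ + R + 1) / ‖x - O‖) • (x - O)) (-x)
    rw [norm_neg, sub_neg_eq_add, add_comm _ x] at this
    exact this
  rw [norm_smul, Real.norm_of_nonneg (by positivity), div_mul_cancel₀ _ hd.ne'] at h2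
  simp only [hγ] at h1
  linarith

end PolygonalTable

variable {N : ℕ} {T : PolygonalTable N} {S : Type} {X : Cx S}

/-- a wall of a tile on a wall of the table -/
lemma wall_dir {t : Triangle} {i : Fin 3} {j : Fin N} (hs : t.side i ⊆ T.side j) :
    (∃ c : ℝ, c ≠ 0 ∧ t.d i = c • (T.b j - T.a j)) ∧
      cr (T.b j - T.a j) (t.P (i + 1) - T.a j) = 0 := by
  have h1 : (1 / 2 : ℝ) • t.P (i + 1) + (1 / 2 : ℝ) • t.P (i + 2) ∈ T.side j :=
    hs ⟨1 / 2, 1 / 2, by norm_num, by norm_num, by norm_num, rfl⟩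
  have h2 : (1 / 3 : ℝ) • t.P (i + 1) + (2 / 3 : ℝ) • t.P (i + 2) ∈ T.side j :=
    hs ⟨1 / 3, 2 / 3, by norm_num, by norm_num, by norm_num, rfl⟩
  obtain ⟨p, q, hp, hq, hpq, he⟩ := h1
  obtain ⟨p', q', hp', hq', hpq', he'⟩ := h2
  have e1 : t.P (i + 2) - t.P (i + 1) = (6 * (q' - q)) • (T.b j - T.a j) := by
    have a1 : (1 / 2 : ℝ) • t.P (i + 1) + (1 / 2 : ℝ) • t.P (i + 2) =
        T.a j + q • (T.b j - T.a j) := by
      rw [← he, show p = 1 - q by linarith]
      module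
    have a2 : (1 / 3 : ℝ) • t.P (i + 1) + (2 / 3 : ℝ) • t.P (i + 2) =
        T.a j + q' • (T.b j - T.a j) := by
      rw [← he', show p' = 1 - q' by linarith]
      module
    have a3 : t.P (i + 2) - t.P (i + 1) = (6 : ℝ) •
        (((1 / 3 : ℝ) • t.P (i + 1) + (2 / 3 : ℝ) • t.P (i + 2)) -
          ((1 / 2 : ℝ) • t.P (i + 1) + (1 / 2 : ℝ) • t.P (i + 2))) := by module
    rw [a3, a1, a2]
    module
  have hd : t.d i = (6 * (q' - q)) • (T.b j - T.a j) := e1
  refine ⟨⟨6 * (q' - q), ?_, hd⟩, ?_⟩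
  · intro h0
    apply t.d_ne i
    rw [hd, h0, zero_smul]
  · have a1 : t.P (i + 1) - T.a j = (q - 3 * (q' - q)) • (T.b j - T.a j) := by
      have a0 : (1 / 2 : ℝ) • t.P (i + 1) + (1 / 2 : ℝ) • t.P (i + 2) =
          T.a j + q • (T.b j - T.a j) := by
        rw [← he, show p = 1 - q by linarith]
        module
      have a2 : t.P (i + 1) = ((1 / 2 : ℝ) • t.P (i + 1) + (1 / 2 : ℝ) • t.P (i + 2)) -
          (1 / 2 : ℝ) • (t.P (i + 2) - t.P (i + 1)) := by module
      rw [a2, a0, e1]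
      module
    rw [a1]
    simp only [cr, Complex.real_smul, Complex.re_ofReal_mul, Complex.im_ofReal_mul]
    ring

lemma wall_lam {t : Triangle} {i : Fin 3} {j : Fin N} (hs : t.side i ⊆ T.side j) (O : ℂ) :
    t.lam i O = 0 ↔ cr (T.b j - T.a j) (O - T.a j) = 0 := by
  obtain ⟨⟨c, hc, hd⟩, h0⟩ := wall_dir hs
  have e1 : cr (t.d i) (O - t.P (i + 1)) = c * cr (T.b j - T.a j) (O - T.a j) := by
    have : cr (t.d i) (O - t.P (i + 1)) = c * (cr (T.b j - T.a j) (O - T.a j) -
        cr (T.b j - T.a j) (t.P (i + 1) - T.a j)) := by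
      rw [hd]
      simp only [cr, Complex.real_smul, Complex.re_ofReal_mul, Complex.im_ofReal_mul,
        Complex.sub_re, Complex.sub_im]
      ring
    rw [this, h0, sub_zero]
  rw [Triangle.lam, div_eq_zero_iff, e1, mul_eq_zero]
  constructor
  · rintro ((h | h) | h)
    · exact absurd h hc
    · exact h
    · exact absurd h t.Del_ne
  · intro h
    exact Or.inl (Or.inr h)

theorem Cut.irr (h : Cut T X) (hT : T.IsIrrational) : X.Irr := by
  obtain ⟨j1, j2, hj⟩ := hT
  obtain ⟨a, ha⟩ : ∃ a, a = T.b j1 - T.a j1 := ⟨_, rfl⟩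
  obtain ⟨b, hb⟩ : ∃ b, b = T.b j2 - T.a j2 := ⟨_, rfl⟩
  have ha0 : a ≠ 0 := ha ▸ T.dir_ne j1
  have hb0 : b ≠ 0 := hb ▸ T.dir_ne j2
  rw [← ha, ← hb] at hj
  have hζ := fun n (hn : n ≠ 0) => rot_pow_ne ha0 hb0 hj (n := n) hn
  have hcr : cr b a ≠ 0 := by
    intro h0
    have h1 : cr a b = 0 := by
      unfold cr at h0 ⊢
      linarith
    have := hζ 1 one_ne_zero
    rw [zpow_one] at this
    exact this (ratio_of_cr ha0 hb0 h1)
  -- the common point of the two lines
  obtain ⟨O, hO1, hO2⟩ : ∃ O : ℂ, cr a (O - T.a j1) = 0 ∧ cr b (O - T.a j2) = 0 := by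
    refine ⟨T.a j1 + (cr b (T.a j2 - T.a j1) / cr b a) • a, ?_, ?_⟩
    · rw [add_sub_cancel_left]
      simp only [cr, Complex.real_smul, Complex.re_ofReal_mul, Complex.im_ofReal_mul]
      ring
    · have e1 : cr b (T.a j1 + (cr b (T.a j2 - T.a j1) / cr b a) • a - T.a j2) =
          (cr b (T.a j2 - T.a j1) / cr b a) * cr b a - cr b (T.a j2 - T.a j1) := by
        generalize cr b (T.a j2 - T.a j1) / cr b a = r
        simp only [cr, Complex.real_smul, Complex.re_ofReal_mul, Complex.im_ofReal_mul,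
          Complex.add_re, Complex.add_im, Complex.sub_re, Complex.sub_im]
        ring
      rw [e1, div_mul_cancel₀ _ hcr, sub_self]
  obtain ⟨j3, hj3⟩ := T.exists_off O
  obtain ⟨s1, i1, w1, v1⟩ := h.all j1
  obtain ⟨s2, i2, w2, v2⟩ := h.all j2
  obtain ⟨s3, i3, w3, v3⟩ := h.all j3
  have hrefl : ∀ {s : S} {i : Fin 3} {j : Fin N}, X.σ s i = s → (X.T s).side i ⊆ T.side j →
      ∀ u, (X.T s).refl i u = T.refl j u := by
    intro s i j w v u
    have hx : (1 / 2 : ℝ) • (X.T s).P (i + 1) + (1 / 2 : ℝ) • (X.T s).P (i + 2) ∈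
        (X.T s).side i := ⟨1 / 2, 1 / 2, by norm_num, by norm_num, by norm_num, rfl⟩
    exact (h.refl_eq s i w _ hx j (v hx) u).symm
  refine ⟨O, (a / b) / (starRingEnd ℂ) (a / b), s1, s2, s3, i1, i2, i3, w1, w2, w3,
    (wall_lam v1 O).2 (ha ▸ hO1), (wall_lam v2 O).2 (hb ▸ hO2),
    fun h0 => hj3 ((wall_lam v3 O).1 h0), norm_rot (div_ne_zero ha0 hb0), fun n hn => hζ n hn, ?_⟩
  intro u
  rw [hrefl w1 v1, hrefl w2 v2, T.refl_eq, T.refl_eq, ← ha, ← hb]
  have hca : (starRingEnd ℂ) a ≠ 0 := by simpa only [ne_eq, map_eq_zero] using ha0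
  have hcb : (starRingEnd ℂ) b ≠ 0 := by simpa only [ne_eq, map_eq_zero] using hb0
  simp only [map_mul, map_div₀, Complex.conj_conj]
  field_simp

end Vale.Agent.P099T
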