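import Vale.Agent.P099.H504.PT.Core
import Vale.Agent.P099.H184.AbsMaps

set_option linter.all false

open MeasureTheory Set Filter Topology

namespace Vale.Agent.P099T

open Vale.Agent.P099

variable {N : ℕ} {T : PolygonalTable N} {S : Type} {X : Cx S}
variable [MeasurableSpace S] [MeasurableSingletonClass S] [Finite S] [Nonempty S]

lemma Cut.relErgodic (h : Cut T X) (hT : T.IsIrrational) {Φ : ℝ → ℂ × ℂ → ℂ × ℂ}
    (hΦ : T.IsBilliardFlow Φ) : H184Abs.RelErgodic T.mu Φ := by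
  intro Ω _ m _ Ξ hΞ A hA hinv
  have hΞ' : PFlow m Ξ := ⟨hΞ.meas, hΞ.mp, hΞ.add, hΞ.zero⟩
  obtain ⟨B, h1, -, h3⟩ := h.relErg hT hΦ hΞ' hA hinv
  exact ⟨B, h1, h3⟩

/-- the time `t` maps, `t ≠ 0` -/
theorem Cut.maps (h : Cut T X) (hT : T.IsIrrational) {Φ : ℝ → ℂ × ℂ → ℂ × ℂ}
    (hΦ : T.IsBilliardFlow Φ) {t : ℝ} (ht : t ≠ 0) :
    (∀ (Ω : Type) [MeasurableSpace Ω] (m : Measure Ω) [IsProbabilityMeasure m] (S : Ω → Ω),
      IsAutomorphism m S → ∀ A : Set ((ℂ × ℂ) × Ω),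
        InvMap (T.mu.prod m) (fun z => (Φ t z.1, S z.2)) A →
        ∃ B : Set Ω, InvMap m S B ∧ (T.mu.prod m) (symmDiff A (univ ×ˢ B)) = 0) ∧
    (∀ A : Set (ℂ × ℂ), InvMap T.mu (Φ t) A → T.mu A = 0 ∨ T.mu A = 1) ∧
    (∀ A : Set ((ℂ × ℂ) × (ℂ × ℂ)), InvMap (T.mu.prod T.mu) (fun z => (Φ t z.1, Φ t z.2)) A →
      (T.mu.prod T.mu) A = 0 ∨ (T.mu.prod T.mu) A = 1) ∧
    (∀ A B : Set (ℂ × ℂ), MeasurableSet A → MeasurableSet B →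
      Tendsto (fun n : ℕ => (n : ℝ)⁻¹ * ∑ k ∈ Finset.range n,
        |T.mu.real (Φ (k * t) ⁻¹' A ∩ B) - T.mu.real A * T.mu.real B|) atTop (𝓝 0)) ∧
    (∀ᵐ p ∂T.mu, ∀ U : Set (ℂ × ℂ), IsOpen U → T.mu U ≠ 0 → ∃ n : ℕ, Φ (n * t) p ∈ U) := by
  obtain ⟨Ψ, Θ, hΨ, hb, hΘ, hbΘ, hpr, huniq⟩ := h.exists_flow
  have hae := huniq Φ hΦ
  have hrel := h.relErgodic hT hbΘ
  have hfl : H184Abs.Flow T.mu Θ := ⟨hΘ.meas, hΘ.mp, hΘ.add, hΘ.zero⟩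
  refine ⟨?_, ?_, ?_, ?_, ?_⟩
  · intro Ω _ m _ S hS A hA
    obtain ⟨B, h1, h2⟩ := H184Abs.rel_map hrel hfl hae ht hS hA
    refine ⟨B, h1, H184Abs.symmDiff_of_ae_iff ?_⟩
    filter_upwards [h2] with z hz
    simp only [mem_prod, mem_univ, true_and]
    exact hz
  · intro A hA
    exact H184Abs.map_zero_one hrel hfl hae ht hA
  · intro A hA
    exact H184Abs.pair_zero_one hrel hfl hae ht hA
  · intro A B hA hB
    exact H184Abs.mean_mixing hrel hfl hae ht hA hB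
  · exact H184Abs.visits hrel hfl hae ht

end Vale.Agent.P099T
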