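import Vale.Agent.P099.H184.PT.Cut

set_option linter.all false

open MeasureTheory Set Filter Topology

namespace Vale.Agent.P099T

open Vale.Agent.P099

/-- all the triangles with the side `x y` are cut in two by the point `p` of this side -/
def spl (F : Set (Finset ℂ)) (x y p : ℂ) : Set (Finset ℂ) :=
  {τ | τ ∈ F ∧ ¬ (x ∈ τ ∧ y ∈ τ)} ∪
    {τ' | ∃ τ ∈ F, x ∈ τ ∧ y ∈ τ ∧ (τ' = insert p (τ.erase x) ∨ τ' = insert p (τ.erase y))}

lemma spl_comm (F : Set (Finset ℂ)) (x y p : ℂ) : spl F x y p = spl F y x p := by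
  unfold spl
  ext τ
  simp only [mem_union, mem_ofPred_eq]
  constructor
  · rintro (⟨h1, h2⟩ | ⟨τ', h1, h2, h3, h4⟩)
    · exact Or.inl ⟨h1, fun h => h2 ⟨h.2, h.1⟩⟩
    · exact Or.inr ⟨τ', h1, h3, h2, h4.symm⟩
  · rintro (⟨h1, h2⟩ | ⟨τ', h1, h2, h3, h4⟩)
    · exact Or.inl ⟨h1, fun h => h2 ⟨h.2, h.1⟩⟩
    · exact Or.inr ⟨τ', h1, h3, h2, h4.symm⟩

lemma nd_ne {x y v : ℂ} (h : cr (y - x) (v - x) ≠ 0) : x ≠ y ∧ x ≠ v ∧ y ≠ v := by
  refine ⟨?_, ?_, ?_⟩
  · rintro rfl
    apply h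
    simp [cr]
  · rintro rfl
    apply h
    simp [cr]
  · rintro rfl
    apply h
    simp only [cr]
    ring

lemma exists_third {F : Set (Finset ℂ)}
    (hF : ∀ τ ∈ F, ∃ x y z, τ = {x, y, z} ∧ cr (y - x) (z - x) ≠ 0)
    {τ : Finset ℂ} (hτ : τ ∈ F) {x y : ℂ} (hx : x ∈ τ) (hy : y ∈ τ) (hxy : x ≠ y) :
    ∃ v, τ = {x, y, v} ∧ cr (y - x) (v - x) ≠ 0 := by
  obtain ⟨a, b, c, rfl, h⟩ := hF τ hτ
  have e : ∀ a b c : ℂ, cr (a - b) (c - b) = - cr (b - a) (c - a) := by
    intro a b c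
    simp only [cr, Complex.sub_re, Complex.sub_im]
    ring
  have e' : ∀ a b c : ℂ, cr (b - a) (c - a) = - cr (c - a) (b - a) := by
    intro a b c
    simp only [cr, Complex.sub_re, Complex.sub_im]
    ring
  simp only [Finset.mem_insert, Finset.mem_singleton] at hx hy
  rcases hx with rfl | rfl | rfl <;> rcases hy with rfl | rfl | rfl
  · exact absurd rfl hxy
  · exact ⟨c, rfl, h⟩
  · refine ⟨b, by ext z; simp; tauto, ?_⟩
    rw [e']
    exact neg_ne_zero.2 h
  · refine ⟨c, by ext z; simp; tauto, ?_⟩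
    rw [e]
    exact neg_ne_zero.2 h
  · exact absurd rfl hxy
  · refine ⟨a, by ext z; simp; tauto, ?_⟩
    rw [e', e]
    simpa using h
  · refine ⟨b, by ext z; simp; tauto, ?_⟩
    rw [e, e']
    simpa using h
  · refine ⟨a, by ext z; simp; tauto, ?_⟩
    have e2 : cr (y - x) (a - x) = - cr (y - a) (x - a) := by
      simp only [cr, Complex.sub_re, Complex.sub_im]
      ring
    rw [e2]
    exact neg_ne_zero.2 h
  · exact absurd rfl hxy

/-- the elements of the new family -/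
lemma mem_spl {F : Set (Finset ℂ)}
    (hF : ∀ τ ∈ F, ∃ x y z, τ = {x, y, z} ∧ cr (y - x) (z - x) ≠ 0) {x y p : ℂ} (hxy : x ≠ y)
    {τ' : Finset ℂ} : τ' ∈ spl F x y p ↔ (τ' ∈ F ∧ ¬ (x ∈ τ' ∧ y ∈ τ')) ∨
      ∃ v, ({x, y, v} : Finset ℂ) ∈ F ∧ cr (y - x) (v - x) ≠ 0 ∧
        (τ' = {p, y, v} ∨ τ' = {x, p, v}) := by
  have key : ∀ v, cr (y - x) (v - x) ≠ 0 →
      insert p (({x, y, v} : Finset ℂ).erase x) = {p, y, v} ∧
      insert p (({x, y, v} : Finset ℂ).erase y) = {x, p, v} := by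
    intro v hv
    obtain ⟨h1, h2, h3⟩ := nd_ne hv
    constructor
    · ext z
      simp only [Finset.mem_insert, Finset.mem_erase, Finset.mem_singleton]
      constructor
      · rintro (h | ⟨h, h' | h' | h'⟩)
        · exact Or.inl h
        · exact absurd h' h
        · exact Or.inr (Or.inl h')
        · exact Or.inr (Or.inr h')
      · rintro (h | h | h)
        · exact Or.inl h
        · exact Or.inr ⟨by rw [h]; exact h1.symm, Or.inr (Or.inl h)⟩
        · exact Or.inr ⟨by rw [h]; exact h2.symm, Or.inr (Or.inr h)⟩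
    · ext z
      simp only [Finset.mem_insert, Finset.mem_erase, Finset.mem_singleton]
      constructor
      · rintro (h | ⟨h, h' | h' | h'⟩)
        · exact Or.inr (Or.inl h)
        · exact Or.inl h'
        · exact absurd h' h
        · exact Or.inr (Or.inr h')
      · rintro (h | h | h)
        · exact Or.inr ⟨by rw [h]; exact h1, Or.inl h⟩
        · exact Or.inl h
        · exact Or.inr ⟨by rw [h]; exact h3.symm, Or.inr (Or.inr h)⟩
  unfold spl
  rw [mem_union, mem_ofPred_eq, mem_ofPred_eq]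
  refine or_congr Iff.rfl ⟨?_, ?_⟩
  · rintro ⟨τ, hτ, hx, hy, h⟩
    obtain ⟨v, rfl, hv⟩ := exists_third hF hτ hx hy hxy
    refine ⟨v, hτ, hv, ?_⟩
    rw [(key v hv).1, (key v hv).2] at h
    exact h
  · rintro ⟨v, h1, h2, h3⟩
    refine ⟨_, h1, by simp, by simp, ?_⟩
    rw [(key v h2).1, (key v h2).2]
    exact h3

/-- the pairs of vertices of a triangle which the line separates -/
def crs (F : Set (Finset ℂ)) (c d : ℂ) : Set (ℂ × ℂ) :=
  {q | ∃ τ ∈ F, q.1 ∈ τ ∧ q.2 ∈ τ ∧ cr d (q.1 - c) < 0 ∧ 0 < cr d (q.2 - c)}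

lemma finite_crs {F : Set (Finset ℂ)} (hF : F.Finite) (c d : ℂ) : (crs F c d).Finite := by
  have h1 : (⋃ τ ∈ F, ((τ : Set ℂ) ×ˢ (τ : Set ℂ))).Finite :=
    hF.biUnion fun τ _ => (τ.finite_toSet.prod τ.finite_toSet)
  refine h1.subset ?_
  rintro ⟨x, y⟩ ⟨τ, hτ, hx, hy, -, -⟩
  exact mem_biUnion hτ ⟨hx, hy⟩

lemma noCross_of_crs {F : Set (Finset ℂ)} {c d : ℂ} (h : crs F c d = ∅) : NoCross F c d := by
  intro τ hτ
  by_cases h1 : ∃ v ∈ τ, cr d (v - c) < 0
  · obtain ⟨v, hv, hv'⟩ := h1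
    right
    intro w hw
    by_contra hlt
    rw [not_le] at hlt
    have : ((v, w) : ℂ × ℂ) ∈ crs F c d := ⟨τ, hτ, hv, hw, hv', hlt⟩
    rw [h] at this
    exact this
  · left
    push Not at h1
    exact h1

lemma cr_between {c d x y p : ℂ} (hp : p ∈ openSegment ℝ x y) :
    ∃ s t : ℝ, 0 < s ∧ 0 < t ∧ s + t = 1 ∧
      cr d (p - c) = s * cr d (x - c) + t * cr d (y - c) := by
  obtain ⟨s, t, hs, ht, hst, rfl⟩ := hp
  refine ⟨s, t, hs, ht, hst, ?_⟩
  have h1 : s = 1 - t := by linarith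
  subst h1
  simp only [cr, Complex.real_smul, Complex.re_ofReal_mul, Complex.im_ofReal_mul,
    Complex.add_re, Complex.add_im, Complex.sub_re, Complex.sub_im]
  ring

lemma noCross_spl {F : Set (Finset ℂ)} {c d : ℂ} (h : NoCross F c d) {x y p : ℂ}
    (hp : p ∈ openSegment ℝ x y) : NoCross (spl F x y p) c d := by
  intro τ' hτ'
  obtain ⟨s, t, hs, ht, -, he⟩ := cr_between (c := c) (d := d) hp
  rcases hτ' with ⟨h1, -⟩ | ⟨τ, h1, hx, hy, h3⟩
  · exact h τ' h1
  · rcases h τ h1 with h4 | h4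
    · left
      have h5 : 0 ≤ cr d (p - c) := by
        rw [he]
        exact add_nonneg (mul_nonneg hs.le (h4 x hx)) (mul_nonneg ht.le (h4 y hy))
      intro v hv
      rcases h3 with rfl | rfl
      · rcases Finset.mem_insert.1 hv with rfl | hv
        · exact h5
        · exact h4 v (Finset.mem_of_mem_erase hv)
      · rcases Finset.mem_insert.1 hv with rfl | hv
        · exact h5
        · exact h4 v (Finset.mem_of_mem_erase hv)
    · right
      have h5 : cr d (p - c) ≤ 0 := by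
        rw [he]
        have g1 := mul_nonneg hs.le (neg_nonneg.2 (h4 x hx))
        have g2 := mul_nonneg ht.le (neg_nonneg.2 (h4 y hy))
        linarith
      intro v hv
      rcases h3 with rfl | rfl
      · rcases Finset.mem_insert.1 hv with rfl | hv
        · exact h5
        · exact h4 v (Finset.mem_of_mem_erase hv)
      · rcases Finset.mem_insert.1 hv with rfl | hv
        · exact h5
        · exact h4 v (Finset.mem_of_mem_erase hv)

/-- the cut at the line removes a crossing pair -/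
lemma crs_spl {F : Set (Finset ℂ)} {c d x y p : ℂ} (hp0 : cr d (p - c) = 0) :
    crs (spl F x y p) c d ⊆ crs F c d \ {(x, y)} := by
  rintro ⟨x', y'⟩ ⟨τ', hτ', h1, h2, h3, h4⟩
  simp only at h1 h2 h3 h4
  have hx' : x' ≠ p := by
    rintro rfl
    rw [hp0] at h3
    exact lt_irrefl _ h3
  have hy' : y' ≠ p := by
    rintro rfl
    rw [hp0] at h4
    exact lt_irrefl _ h4
  rcases hτ' with ⟨g1, g2⟩ | ⟨τ, g1, g2, g3, rfl | rfl⟩
  · refine ⟨⟨τ', g1, h1, h2, h3, h4⟩, ?_⟩
    intro h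
    rw [mem_singleton_iff, Prod.mk.injEq] at h
    obtain ⟨rfl, rfl⟩ := h
    exact g2 ⟨h1, h2⟩
  · have k1 := (Finset.mem_insert.1 h1).resolve_left hx'
    have k2 := (Finset.mem_insert.1 h2).resolve_left hy'
    refine ⟨⟨τ, g1, Finset.mem_of_mem_erase k1, Finset.mem_of_mem_erase k2, h3, h4⟩, ?_⟩
    intro h
    rw [mem_singleton_iff, Prod.mk.injEq] at h
    exact Finset.ne_of_mem_erase k1 h.1
  · have k1 := (Finset.mem_insert.1 h1).resolve_left hx'
    have k2 := (Finset.mem_insert.1 h2).resolve_left hy'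
    refine ⟨⟨τ, g1, Finset.mem_of_mem_erase k1, Finset.mem_of_mem_erase k2, h3, h4⟩, ?_⟩
    intro h
    rw [mem_singleton_iff, Prod.mk.injEq] at h
    exact Finset.ne_of_mem_erase k2 h.2

/-- the point of the side on the line -/
lemma exists_point {c d x y : ℂ} (h1 : cr d (x - c) < 0) (h2 : 0 < cr d (y - c)) :
    ∃ p ∈ openSegment ℝ x y, cr d (p - c) = 0 := by
  set a := cr d (x - c) with ha
  set b := cr d (y - c) with hb
  have hab : 0 < b - a := by linarith
  refine ⟨(b / (b - a)) • x + (-a / (b - a)) • y,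
    ⟨b / (b - a), -a / (b - a), div_pos h2 hab, div_pos (by linarith) hab, ?_, rfl⟩, ?_⟩
  · rw [← add_div, div_eq_one_iff_eq hab.ne']
    ring
  · have e : cr d ((b / (b - a)) • x + (-a / (b - a)) • y - c) =
        (b / (b - a)) * a + (-a / (b - a)) * b +
          (b / (b - a) + (-a / (b - a)) - 1) * (d.re * c.im - d.im * c.re) := by
      rw [ha, hb]
      generalize (cr d (y - c) / (cr d (y - c) - cr d (x - c))) = u
      generalize (-cr d (x - c) / (cr d (y - c) - cr d (x - c))) = w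
      simp only [cr, Complex.real_smul, Complex.re_ofReal_mul, Complex.im_ofReal_mul,
        Complex.add_re, Complex.add_im, Complex.sub_re, Complex.sub_im]
      ring
    rw [e]
    field_simp
    ring

/-- the move -/
def Move (Q : Set ℂ) : Prop :=
  ∀ F : Set (Finset ℂ), Trg Q F → ∀ τ ∈ F, ∀ x ∈ τ, ∀ y ∈ τ, x ≠ y → ∀ p ∈ openSegment ℝ x y,
    Trg Q (spl F x y p)

/-- removing the crossings with one line -/
lemma remove_line {Q : Set ℂ} (hmove : Move Q) {L : Finset (ℂ × ℂ)} {c d : ℂ} :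
    ∀ (n : ℕ) (F : Set (Finset ℂ)), Trg Q F → (∀ l ∈ L, NoCross F l.1 l.2) →
      (crs F c d).ncard ≤ n →
      ∃ F', Trg Q F' ∧ (∀ l ∈ L, NoCross F' l.1 l.2) ∧ NoCross F' c d := by
  intro n
  induction n with
  | zero =>
    intro F hF hL hn
    refine ⟨F, hF, hL, noCross_of_crs ?_⟩
    exact (Set.ncard_eq_zero (finite_crs hF.finite c d)).1 (Nat.le_zero.1 hn)
  | succ n ih =>
    intro F hF hL hn
    by_cases h0 : crs F c d = ∅
    · exact ⟨F, hF, hL, noCross_of_crs h0⟩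
    · obtain ⟨⟨x, y⟩, hxy⟩ := nonempty_iff_ne_empty.2 h0
      have hxy' := hxy
      obtain ⟨τ, hτ, hx, hy, h1, h2⟩ := hxy
      simp only at hx hy h1 h2
      obtain ⟨p, hp, hp0⟩ := exists_point h1 h2
      have hne : x ≠ y := by
        rintro rfl
        linarith
      have hF' := hmove F hF τ hτ x hx y hy hne p hp
      refine ih (spl F x y p) hF' (fun l hl => noCross_spl (hL l hl) hp) ?_
      have hsub := crs_spl (F := F) (x := x) (y := y) hp0
      have hfin := finite_crs hF.finite c d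
      have h3 : (crs (spl F x y p) c d).ncard ≤ (crs F c d \ {(x, y)}).ncard :=
        Set.ncard_le_ncard hsub (hfin.subset diff_subset)
      have h4 := Set.ncard_diff_singleton_lt_of_mem hxy' hfin
      omega

/-- the induction over the lines -/
theorem exists_trg_of {Q : Set ℂ} (hmove : Move Q) (hbase : ∃ F, Trg Q F)
    (L : Finset (ℂ × ℂ)) :
    ∃ F : Set (Finset ℂ), Trg Q F ∧ ∀ l ∈ L, NoCross F l.1 l.2 := by
  classical
  induction L using Finset.induction_on with
  | empty =>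
    obtain ⟨F, hF⟩ := hbase
    exact ⟨F, hF, by simp⟩
  | insert l L hl ih =>
    obtain ⟨F, hF, hL⟩ := ih
    obtain ⟨F', h1, h2, h3⟩ := remove_line hmove (c := l.1) (d := l.2) _ F hF hL le_rfl
    refine ⟨F', h1, fun l' hl' => ?_⟩
    rcases Finset.mem_insert.1 hl' with rfl | h
    · exact h3
    · exact h2 l' h

end Vale.Agent.P099T
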